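import Mathlib
import Vale.Agent.P037.Defs

/-!
The host matrix for the refutation of polynomial ordered removal (problem P037).

Rows and columns share one index set: four fake classes, anchor classes, and a binary tree of
depth `L` in which every node owns a band at each of the two ends of its interval.
-/

namespace Vale.Agent.P037.Refute

open Finset

variable {L : ℕ}

/-- Index of an anchor class: an own level and bit, and the level and bit of the other side. -/
abbrev Tau (L : ℕ) := (Fin L × Bool) × (Fin L × Bool)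

/-- Classes of rows and of columns: fake, anchor, tree band. -/
abbrev Slot (L : ℕ) := Fin 4 ⊕ (Bool × Tau L) ⊕ (Bool × Fin (L + 1))

/-- An element is a class together with an offset. -/
abbrev Pos (L : ℕ) := Slot L × Fin (2 ^ L)

/-- The node at level `m` above the leaf `q`. -/
def pre (L m : ℕ) (q : Fin (2 ^ L)) : ℕ := q.val / 2 ^ (L - m)

/-- The last bit of the node at level `m` above `q`. -/
def bit (L m : ℕ) (q : Fin (2 ^ L)) : Bool := decide (pre L m q % 2 = 1)

/-- Comparability of the nodes `(l, q)` and `(l', q')`. -/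
def Comp (L l l' : ℕ) (q q' : Fin (2 ^ L)) : Prop := pre L (min l l') q = pre L (min l l') q'

instance (L l l' : ℕ) (q q' : Fin (2 ^ L)) : Decidable (Comp L l l' q q') :=
  inferInstanceAs (Decidable (_ = _))

/-- The tree part: comparable, except that two bottom nodes are never adjacent. -/
def treeAdj (L l l' : ℕ) (q q' : Fin (2 ^ L)) : Bool :=
  decide (Comp L l l' q q' ∧ ¬(l = L ∧ l' = L))

/-- The fixed block on the fake classes. -/
def fakeTab : Fin 4 → Fin 4 → Bool :=
  ![![true, true, true, false], ![true, true, false, true],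
    ![true, false, true, true], ![false, true, true, false]]

/-- Admissible anchor index: equal levels require equal bits. -/
def Allowed (t : Tau L) : Prop := t.1.1 = t.2.1 → t.1.2 = t.2.2

instance (t : Tau L) : Decidable (Allowed t) := inferInstanceAs (Decidable (_ → _))

/-- An anchor class against a tree element. -/
def ancTree (k : Bool) (t : Tau L) (l : ℕ) (q : Fin (2 ^ L)) : Bool :=
  if k then decide (l = t.1.1.val + 1 ∧ bit L l q = t.1.2) else decide (l = t.1.1.val)

/-- A fake class against a tree element. -/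
def fakeTree (L : ℕ) (a : Fin 4) (l : ℕ) : Bool := decide (l = L ∧ a ≠ 1)

/-- The host matrix on abstract positions. -/
def host : Pos L → Pos L → Bool
  | (.inl a, _), (.inl b, _) => fakeTab a b
  | (.inl _, _), (.inr (.inl _), _) => false
  | (.inl a, _), (.inr (.inr (_, l)), _) => fakeTree L a l.val
  | (.inr (.inl _), _), (.inl _, _) => false
  | (.inr (.inl (_, t)), _), (.inr (.inl (_, t')), _) => decide (t' = t.swap ∧ Allowed t)
  | (.inr (.inl (k, t)), _), (.inr (.inr (_, l)), q) => ancTree k t l.val q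
  | (.inr (.inr (_, l)), _), (.inl a, _) => fakeTree L a l.val
  | (.inr (.inr (_, l)), q), (.inr (.inl (k, t)), _) => ancTree k t l.val q
  | (.inr (.inr (_, l)), q), (.inr (.inr (_, l')), q') => treeAdj L l.val l'.val q q'

theorem allowed_swap (t : Tau L) : Allowed t.swap ↔ Allowed t := by
  constructor <;> intro h e <;> exact (h e.symm).symm

theorem fakeTab_symm : ∀ a b, fakeTab a b = fakeTab b a := by decide

theorem treeAdj_symm (l l' : ℕ) (q q' : Fin (2 ^ L)) :
    treeAdj L l l' q q' = treeAdj L l' l q' q := by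
  simp only [treeAdj]
  rw [decide_eq_decide]
  constructor <;> rintro ⟨h1, h2⟩ <;>
    exact ⟨by rw [Comp, min_comm]; exact h1.symm, fun h => h2 ⟨h.2, h.1⟩⟩

theorem host_symm (a b : Pos L) : host a b = host b a := by
  rcases a with ⟨a | ⟨k, t⟩ | ⟨s, l⟩, q⟩ <;> rcases b with ⟨b | ⟨k', t'⟩ | ⟨s', l'⟩, q'⟩ <;>
    simp only [host]
  · exact fakeTab_symm a b
  · rw [decide_eq_decide]
    constructor
    · rintro ⟨rfl, h⟩
      exact ⟨(Prod.swap_swap t).symm, (allowed_swap t).2 h⟩
    · rintro ⟨rfl, h⟩
      exact ⟨(Prod.swap_swap t').symm, (allowed_swap t').2 h⟩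
  · exact treeAdj_symm _ _ _ _

/-- The order key of a band inside the tree. -/
def band (L : ℕ) (s : Bool) (l : ℕ) (q : Fin (2 ^ L)) : ℕ :=
  if s then (pre L l q + 1) * 2 ^ (L - l) * (2 * L + 3) - 1 - l
  else pre L l q * 2 ^ (L - l) * (2 * L + 3) + l

theorem pre_pre {m l : ℕ} (hm : m ≤ l) (hl : l ≤ L) (q : Fin (2 ^ L)) :
    pre L m q = pre L l q / 2 ^ (l - m) := by
  unfold pre
  rw [Nat.div_div_eq_div_mul, ← pow_add]
  congr 2
  omega

theorem pre_eq_of_le {m l : ℕ} (hm : m ≤ l) (hl : l ≤ L) {q q' : Fin (2 ^ L)}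
    (h : pre L l q = pre L l q') : pre L m q = pre L m q' := by
  rw [pre_pre hm hl, pre_pre hm hl, h]

theorem pre_zero (q : Fin (2 ^ L)) : pre L 0 q = 0 := by
  simp [pre, Nat.div_eq_of_lt q.isLt]

/-- The band key determines every ancestor of the node. -/
theorem band_div {m l : ℕ} (hm : m ≤ l) (hl : l ≤ L) (s : Bool) (q : Fin (2 ^ L)) :
    band L s l q / (2 ^ (L - m) * (2 * L + 3)) = pre L m q := by
  have hp : 0 < 2 ^ (L - l) := Nat.two_pow_pos _
  have hd : 2 ^ (L - m) = 2 ^ (l - m) * 2 ^ (L - l) := by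
    rw [← pow_add]; congr 1; omega
  rw [pre_pre hm hl, hd]
  obtain ⟨P, hP⟩ : ∃ P, pre L l q = P := ⟨_, rfl⟩
  obtain ⟨W, hW⟩ : ∃ W, 2 ^ (L - l) * (2 * L + 3) = W := ⟨_, rfl⟩
  have hW' : 2 * L + 3 ≤ W := hW ▸ Nat.le_mul_of_pos_left _ hp
  have hb : band L s l q = if s then (P + 1) * W - 1 - l else P * W + l := by
    simp only [band, mul_assoc, hP, hW]
  have key : band L s l q / W = P := by
    rw [hb]
    apply Nat.div_eq_of_lt_le <;> cases s <;>
      simp only [Bool.false_eq_true, if_true, if_false, add_mul, one_mul] <;> omega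
  rw [hP]
  rw [mul_comm (2 ^ (l - m)), mul_right_comm,
    hW, ← Nat.div_div_eq_div_mul, key]

/-- Squeezing: an element between two elements of one node lies in that node. -/
theorem pre_between {m l₁ l l₂ : ℕ} (h₁ : m ≤ l₁) (h : m ≤ l) (h₂ : m ≤ l₂)
    (hL₁ : l₁ ≤ L) (hL : l ≤ L) (hL₂ : l₂ ≤ L) {s₁ s s₂ : Bool} {q₁ q q₂ : Fin (2 ^ L)}
    (hq : pre L m q₁ = pre L m q₂)
    (a : band L s₁ l₁ q₁ ≤ band L s l q) (b : band L s l q ≤ band L s₂ l₂ q₂) :
    pre L m q = pre L m q₁ := by
  have ha := Nat.div_le_div_right (c := 2 ^ (L - m) * (2 * L + 3)) a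
  have hb := Nat.div_le_div_right (c := 2 ^ (L - m) * (2 * L + 3)) b
  rw [band_div h₁ hL₁, band_div h hL] at ha
  rw [band_div h hL, band_div h₂ hL₂] at hb
  omega

/-- The main key of a position: region first, band inside the tree. -/
def mainKey : Pos L → ℕ
  | (.inl a, _) => a.val
  | (.inr (.inl (k, _)), _) => if k then 5 else 4
  | (.inr (.inr (s, l)), q) => 6 + band L s l.val q

/-- The position key, an injective refinement of `mainKey`. -/
noncomputable def posKey (p : Pos L) : ℕ :=
  mainKey p * Fintype.card (Pos L) + (Fintype.equivFin (Pos L) p).val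

theorem posKey_injective : Function.Injective (posKey (L := L)) := by
  intro a b h
  have hpos : 0 < Fintype.card (Pos L) := Fintype.card_pos_iff.2 ⟨a⟩
  have := congrArg (· % Fintype.card (Pos L)) h
  simp only [posKey, Nat.mul_add_mod_self_right, Nat.mod_eq_of_lt (Fin.isLt _)] at this
  exact (Fintype.equivFin (Pos L)).injective (Fin.ext this)

theorem mainKey_le {a b : Pos L} (h : posKey a < posKey b) : mainKey a ≤ mainKey b := by
  by_contra hc
  have h1 : (mainKey b + 1) * Fintype.card (Pos L) ≤ mainKey a * Fintype.card (Pos L) :=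
    Nat.mul_le_mul_right _ (by omega)
  have := (Fintype.equivFin (Pos L) b).isLt
  simp only [posKey] at h
  rw [add_mul, one_mul] at h1
  omega

theorem posKey_lt {a b : Pos L} (h : mainKey a < mainKey b) : posKey a < posKey b := by
  have h1 : (mainKey a + 1) * Fintype.card (Pos L) ≤ mainKey b * Fintype.card (Pos L) :=
    Nat.mul_le_mul_right _ h
  have := (Fintype.equivFin (Pos L) a).isLt
  simp only [posKey]
  rw [add_mul, one_mul] at h1
  omega

theorem card_pos_eq : Fintype.card (Pos L) = (8 * L ^ 2 + 2 * L + 6) * 2 ^ L := by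
  simp only [Fintype.card_prod, Fintype.card_sum, Fintype.card_fin, Fintype.card_bool]
  ring

end Vale.Agent.P037.Refute
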