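import Mathlib
import Vale.Agent.P037.Refute.Host

/-!
Every copy of the pattern in the host contains two bottom elements of one leaf.
-/

namespace Vale.Agent.P037.Refute

variable {L : ℕ}

/-- The forbidden pattern. -/
def patH : Fin 5 → Fin 5 → Bool :=
  ![![true, true, true, false, true], ![true, true, false, true, false],
    ![true, false, true, true, true], ![false, true, true, false, true],
    ![true, false, true, true, true]]

theorem patH_symm : ∀ i j, patH i j = patH j i := by decide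

/-- A bottom pair of one leaf. -/
def LeafPair (a b : Pos L) : Prop :=
  ∃ (s s' : Bool) (q : Fin (2 ^ L)),
    a = (.inr (.inr (s, Fin.last L)), q) ∧ b = (.inr (.inr (s', Fin.last L)), q)

/-- The tree position of given side, level and offset. -/
def tpos (s : Bool) (l : Fin (L + 1)) (q : Fin (2 ^ L)) : Pos L := (.inr (.inr (s, l)), q)

theorem host_tpos (s s' : Bool) (l l' : Fin (L + 1)) (q q' : Fin (2 ^ L)) :
    host (tpos s l q) (tpos s' l' q') = treeAdj L l.val l'.val q q' := rfl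

theorem pre_self (q : Fin (2 ^ L)) : pre L L q = q.val := by simp [pre]

theorem adj_true {l l' : ℕ} {q q' : Fin (2 ^ L)} (h : treeAdj L l l' q q' = true) :
    Comp L l l' q q' := (of_decide_eq_true h).1

theorem adj_false {s s' : Bool} {l l' : Fin (L + 1)} {q q' : Fin (2 ^ L)}
    (h : treeAdj L l.val l'.val q q' = false) :
    ¬ Comp L l.val l'.val q q' ∨ LeafPair (tpos s l q) (tpos s' l' q') := by
  by_cases hc : Comp L l.val l'.val q q'
  · right
    have h2 := of_decide_eq_false h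
    push Not at h2
    obtain ⟨e1, e2⟩ := h2 hc
    have hq : q = q' := by
      have := hc
      simp only [Comp, e1, e2, min_self, pre_self] at this
      exact Fin.ext this
    obtain rfl : l = Fin.last L := Fin.ext (by simpa using e1)
    obtain rfl : l' = Fin.last L := Fin.ext (by simpa using e2)
    subst hq
    exact ⟨s, s', q, rfl, rfl⟩
  · exact Or.inl hc

theorem comp_symm {l l' : ℕ} {q q' : Fin (2 ^ L)} (h : Comp L l l' q q') :
    Comp L l' l q' q := by rw [Comp, min_comm]; exact h.symm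

theorem comp_trans {x y z : ℕ} (hy : y ≤ L) {a b c : Fin (2 ^ L)} (h1 : Comp L x y a b)
    (h2 : Comp L y z b c) (h : min x z ≤ y) : Comp L x z a c := by
  unfold Comp at *
  have u1 := pre_eq_of_le (m := min x z) (l := min x y) (by omega) (by omega) h1
  have u2 := pre_eq_of_le (m := min x z) (l := min y z) (by omega) (by omega) h2
  exact u1.trans u2

/-- Comparability graphs of trees have no induced hexagon. -/
theorem no_hexagon {a₁ a₂ b c e₃ e₄ : ℕ} {p₁ p₂ pb pc p₃ p₄ : Fin (2 ^ L)}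
    (la₁ : a₁ ≤ L) (la₂ : a₂ ≤ L) (lc : c ≤ L) (l₃ : e₃ ≤ L)
    (h1c : Comp L a₁ c p₁ pc) (h13 : Comp L a₁ e₃ p₁ p₃) (h14 : ¬ Comp L a₁ e₄ p₁ p₄)
    (h2c : Comp L a₂ c p₂ pc) (h24 : Comp L a₂ e₄ p₂ p₄) (h23 : ¬ Comp L a₂ e₃ p₂ p₃)
    (hb3 : Comp L b e₃ pb p₃) (hbc : ¬ Comp L b c pb pc) : False := by
  by_cases hr : Comp L a₁ a₂ p₁ p₂
  · have u1 : a₁ < min a₂ e₃ := by
      by_contra hh; exact h23 (comp_trans la₁ (comp_symm hr) h13 (by omega))
    have u2 : a₂ < min a₁ e₄ := by
      by_contra hh; exact h14 (comp_trans la₂ hr h24 (by omega))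
    omega
  · by_cases hc : Comp L c e₃ pc p₃
    · have u1 : c < min a₂ e₃ := by
        by_contra hh; exact h23 (comp_trans lc h2c hc (by omega))
      have u2 : e₃ < min b c := by
        by_contra hh; exact hbc (comp_trans l₃ hb3 (comp_symm hc) (by omega))
      omega
    · have u1 : c < min a₁ a₂ := by
        by_contra hh; exact hr (comp_trans lc h1c (comp_symm h2c) (by omega))
      have u2 : a₁ < min c e₃ := by
        by_contra hh; exact hc (comp_trans la₁ (comp_symm h1c) h13 (by omega))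
      omega

/-- The position is a tree element. -/
def IsTree (a : Pos L) : Prop := ∃ s l q, a = tpos s l q

theorem tree_iff (a : Pos L) : IsTree a ↔ 6 ≤ mainKey a := by
  constructor
  · rintro ⟨s, l, q, rfl⟩; simp [tpos, mainKey]
  · intro h
    rcases a with ⟨a | ⟨k, t⟩ | ⟨s, l⟩, q⟩
    · have := a.isLt; simp only [mainKey] at h; omega
    · simp only [mainKey] at h; cases k <;> simp at h
    · exact ⟨s, l, q, rfl⟩

/-- The supports of non-tree elements on the tree form a laminar family. -/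
theorem laminar {u v e₁ e₂ e₃ : Pos L} (hu : ¬ IsTree u) (hv : ¬ IsTree v)
    (h₁ : IsTree e₁) (h₂ : IsTree e₂) (h₃ : IsTree e₃)
    (a₁ : host u e₁ = true) (b₁ : host v e₁ = true) (a₂ : host u e₂ = true)
    (b₂ : host v e₂ = false) (a₃ : host u e₃ = false) (b₃ : host v e₃ = true) : False := by
  obtain ⟨s₁, l₁, q₁, rfl⟩ := h₁
  obtain ⟨s₂, l₂, q₂, rfl⟩ := h₂
  obtain ⟨s₃, l₃, q₃, rfl⟩ := h₃
  rcases u with ⟨a | ⟨k, t⟩ | ⟨s, l⟩, p⟩
  pick_goal 3
  · exact hu ⟨s, l, p, rfl⟩
  all_goals rcases v with ⟨a' | ⟨k', t'⟩ | ⟨s', l'⟩, p'⟩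
  pick_goal 3
  · exact hv ⟨s', l', p', rfl⟩
  pick_goal 5
  · exact hv ⟨s', l', p', rfl⟩
  · simp_all [host, tpos, fakeTree]
  · cases k' <;> simp_all [host, tpos, fakeTree, ancTree]
  · cases k <;> simp_all [host, tpos, fakeTree, ancTree]
  · cases k <;> cases k' <;> simp_all [host, tpos, ancTree] <;> grind

/-- Values of the fake classes on the six classes fake, bottom, other. -/
def tabSix (a : Fin 4) (b : Fin 6) : Bool :=
  ![![true, true, true, false, true, false], ![true, true, false, true, false, false],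
    ![true, false, true, true, true, false], ![false, true, true, false, true, false]] a b

/-- Position of a class relative to the fake ones. -/
def classSix : Pos L → Fin 6
  | (.inl a, _) => a.castLE (by omega)
  | (.inr (.inr (_, l)), _) => if l.val = L then 4 else 5
  | (.inr (.inl _), _) => 5

theorem host_fake (a : Fin 4) (p : Fin (2 ^ L)) (e : Pos L) :
    host (.inl a, p) e = tabSix a (classSix e) := by
  rcases e with ⟨b | ⟨k, t⟩ | ⟨s, l⟩, q⟩
  · simp only [host, classSix]; revert a b; decide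
  · simp only [host, classSix]; revert a; decide
  · simp only [host, classSix, fakeTree]
    by_cases h : l.val = L <;> simp only [h, if_true, if_false, true_and, false_and]
    · revert a; decide
    · revert a; decide

theorem classSix_mono {a b : Pos L} (h : mainKey a ≤ mainKey b) :
    min (classSix a).val 4 ≤ min (classSix b).val 4 := by
  rcases b with ⟨b | ⟨k, t⟩ | ⟨s, l⟩, q⟩
  · rcases a with ⟨a | ⟨k', t'⟩ | ⟨s', l'⟩, p⟩ <;> have := b.isLt
    · simp only [mainKey] at h; simp only [classSix, Fin.val_castLE]; omega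
    · simp only [mainKey] at h; split at h <;> omega
    · simp only [mainKey] at h; omega
  · exact le_trans (min_le_right _ _) (by simp [classSix])
  · exact le_trans (min_le_right _ _) (by simp only [classSix]; split <;> simp)

theorem fake_case : ∀ a0 a1 b0 b1 : Fin 4, a0 ≤ a1 → b0 ≤ b1 →
    fakeTab a0 b0 = true → fakeTab a0 b1 = true → fakeTab a1 b0 = true → fakeTab a1 b1 = true →
    ∀ c2 : Fin 6, min b1.val 4 ≤ min c2.val 4 → tabSix a0 c2 = true → tabSix a1 c2 = false →
    ∀ c3 : Fin 6, min c2.val 4 ≤ min c3.val 4 → tabSix a0 c3 = false → tabSix a1 c3 = true →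
    ∀ c4 : Fin 6, min c3.val 4 ≤ min c4.val 4 → tabSix a0 c4 = true → tabSix a1 c4 = false →
      c4 = 4 := by
  decide

theorem bit_ext {m : ℕ} (hm : m < L) {q q' : Fin (2 ^ L)} (h : pre L m q = pre L m q')
    (hb : bit L (m + 1) q = bit L (m + 1) q') : pre L (m + 1) q = pre L (m + 1) q' := by
  rw [pre_pre (m := m) (l := m + 1) (by omega) (by omega) q,
    pre_pre (m := m) (l := m + 1) (by omega) (by omega) q'] at h
  simp only [show m + 1 - m = 1 by omega, pow_one] at h
  simp only [bit, decide_eq_decide] at hb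
  have h1 := Nat.mod_two_eq_zero_or_one (pre L (m + 1) q)
  have h2 := Nat.mod_two_eq_zero_or_one (pre L (m + 1) q')
  omega

/-- The geometric step: the two middle elements are comparable. -/
theorem middle_comp {i j : ℕ} (hi : i < L) (hj : j < L) (hij : i ≤ j)
    {qb qx qb' qd qy qd' : Fin (2 ^ L)} {sb sx sb' sd sy sd' : Bool}
    (obx : band L sb i qb ≤ band L sx (i + 1) qx)
    (oxb : band L sx (i + 1) qx ≤ band L sb' i qb')
    (ody : band L sd j qd ≤ band L sy (j + 1) qy)
    (oyd : band L sy (j + 1) qy ≤ band L sd' j qd')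
    (hbd : Comp L i j qb qd) (hbd' : Comp L i j qb qd') (hb'd : Comp L i j qb' qd)
    (hxd : Comp L (i + 1) j qx qd) (hxd' : Comp L (i + 1) j qx qd')
    (hbit : i = j → bit L (i + 1) qx = bit L (j + 1) qy) :
    Comp L (i + 1) (j + 1) qx qy := by
  unfold Comp at *
  rw [min_eq_left hij] at hbd hbd' hb'd
  rw [min_eq_left (show i + 1 ≤ j + 1 by omega)]
  rcases Nat.lt_or_eq_of_le hij with h | h
  · rw [min_eq_left (show i + 1 ≤ j by omega)] at hxd hxd'
    have hy : pre L (i + 1) qy = pre L (i + 1) qd :=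
      pre_between (l₁ := j) (l := j + 1) (l₂ := j) (by omega) (by omega) (by omega)
        (by omega) (by omega) (by omega) (hxd.symm.trans hxd') ody oyd
    exact hxd.trans hy.symm
  · subst h
    have hx : pre L i qx = pre L i qb :=
      pre_between le_rfl (by omega) le_rfl (by omega) (by omega) (by omega)
        (hbd.trans hb'd.symm) obx oxb
    have hy : pre L i qy = pre L i qd :=
      pre_between le_rfl (by omega) le_rfl (by omega) (by omega) (by omega)
        (hbd.symm.trans hbd') ody oyd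
    exact bit_ext hi (hx.trans (hbd.trans hy.symm)) (hbit rfl)

/-- The middle case: both anchors genuine, the last three rows and columns in the tree. -/
theorem anchor_case (r c : Fin 5 → Pos L) (t : Tau L) (p0 p1 u0 u1 : Fin (2 ^ L))
    (hall : Allowed t)
    (hr0 : r 0 = (.inr (.inl (false, t)), p0)) (hr1 : r 1 = (.inr (.inl (true, t)), p1))
    (hc0 : c 0 = (.inr (.inl (false, t.swap)), u0)) (hc1 : c 1 = (.inr (.inl (true, t.swap)), u1))
    (hrT : ∀ i, 2 ≤ i → IsTree (r i)) (hcT : ∀ i, 2 ≤ i → IsTree (c i))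
    (hr : ∀ i j, i ≤ j → mainKey (r i) ≤ mainKey (r j))
    (hc : ∀ i j, i ≤ j → mainKey (c i) ≤ mainKey (c j))
    (h : ∀ i j, host (r i) (c j) = patH i j) : ∃ i j, LeafPair (r i) (c j) := by
  obtain ⟨sb, lb, qb, eb⟩ := hrT 2 (by decide)
  obtain ⟨sx, lx, qx, ex⟩ := hrT 3 (by decide)
  obtain ⟨sb', lb', qb', eb'⟩ := hrT 4 (by decide)
  obtain ⟨sd, ld, qd, ed⟩ := hcT 2 (by decide)
  obtain ⟨sy, ly, qy, ey⟩ := hcT 3 (by decide)
  obtain ⟨sd', ld', qd', ed'⟩ := hcT 4 (by decide)
  have v02 := h 0 2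
  have v13 := h 1 3
  have v04 := h 0 4
  have v20 := h 2 0
  have v31 := h 3 1
  have v40 := h 4 0
  simp only [hr0, hr1, hc0, hc1, eb, ex, eb', ed, ey, ed', tpos, host, ancTree, patH,
    Bool.false_eq_true, if_true, if_false, Prod.fst_swap] at v02 v13 v04 v20 v31 v40
  replace v02 := of_decide_eq_true v02
  replace v13 := of_decide_eq_true v13
  replace v04 := of_decide_eq_true v04
  replace v20 := of_decide_eq_true v20
  replace v31 := of_decide_eq_true v31
  replace v40 := of_decide_eq_true v40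
  set i := t.2.1.val with hi
  set j := t.1.1.val with hj
  have obx : band L sb i qb ≤ band L sx (i + 1) qx := by
    have := hr 2 3 (by decide); simpa [eb, ex, tpos, mainKey, v20, v31.1] using this
  have oxb : band L sx (i + 1) qx ≤ band L sb' i qb' := by
    have := hr 3 4 (by decide); simpa [eb', ex, tpos, mainKey, v40, v31.1] using this
  have ody : band L sd j qd ≤ band L sy (j + 1) qy := by
    have := hc 2 3 (by decide); simpa [ed, ey, tpos, mainKey, v02, v13.1] using this
  have oyd : band L sy (j + 1) qy ≤ band L sd' j qd' := by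
    have := hc 3 4 (by decide); simpa [ed', ey, tpos, mainKey, v04, v13.1] using this
  have hcell : ∀ a b, patH a b = true → ∀ s l q s' l' q', r a = tpos s l q → c b = tpos s' l' q' →
      Comp L l.val l'.val q q' := by
    intro a b hab s l q s' l' q' e e'
    have := h a b
    rw [e, e', host_tpos, hab] at this
    exact adj_true this
  have hbd := hcell 2 2 rfl _ _ _ _ _ _ eb ed
  have hbd' := hcell 2 4 rfl _ _ _ _ _ _ eb ed'
  have hb'd := hcell 4 2 rfl _ _ _ _ _ _ eb' ed
  have hxd := hcell 3 2 rfl _ _ _ _ _ _ ex ed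
  have hxd' := hcell 3 4 rfl _ _ _ _ _ _ ex ed'
  have hby := hcell 2 3 rfl _ _ _ _ _ _ eb ey
  have hb'y := hcell 4 3 rfl _ _ _ _ _ _ eb' ey
  rw [v20, v02] at hbd
  rw [v20, v04] at hbd'
  rw [v40, v02] at hb'd
  rw [v31.1, v02] at hxd
  rw [v31.1, v04] at hxd'
  rw [v20, v13.1] at hby
  rw [v40, v13.1] at hb'y
  have hxy : Comp L (i + 1) (j + 1) qx qy := by
    have hbit : i = j → bit L (i + 1) qx = bit L (j + 1) qy := by
      intro e
      rw [← v31.1, ← v13.1, v31.2, v13.2]
      exact (hall (Fin.ext e.symm)).symm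
    rcases le_total i j with hle | hle
    · exact middle_comp t.2.1.isLt t.1.1.isLt hle obx oxb ody oyd hbd hbd' hb'd hxd hxd' hbit
    · exact comp_symm (middle_comp t.1.1.isLt t.2.1.isLt hle ody oyd obx oxb (comp_symm hbd)
        (comp_symm hb'd) (comp_symm hbd') (comp_symm hby) (comp_symm hb'y)
        (fun e => (hbit e.symm).symm))
  have v33 := h 3 3
  rw [ex, ey, host_tpos] at v33
  rcases adj_false (s := sx) (s' := sy) v33 with hn | hp
  · rw [v31.1, v13.1] at hn
    exact absurd hxy hn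
  · exact ⟨3, 3, by rw [ex, ey]; exact hp⟩

/-- The fake case is impossible. -/
theorem fake_false (r c : Fin 5 → Pos L) (a0 a1 b0 b1 : Fin 4) (p0 p1 u0 u1 : Fin (2 ^ L))
    (hr0 : r 0 = (.inl a0, p0)) (hr1 : r 1 = (.inl a1, p1))
    (hc0 : c 0 = (.inl b0, u0)) (hc1 : c 1 = (.inl b1, u1))
    (hr : ∀ i j, i ≤ j → mainKey (r i) ≤ mainKey (r j))
    (hc : ∀ i j, i ≤ j → mainKey (c i) ≤ mainKey (c j))
    (h : ∀ i j, host (r i) (c j) = patH i j) : False := by
  have ha : a0 ≤ a1 := by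
    have := hr 0 1 (by decide); simpa [hr0, hr1, mainKey] using this
  have hb : b0 ≤ b1 := by
    have := hc 0 1 (by decide); simpa [hc0, hc1, mainKey] using this
  have f00 : fakeTab a0 b0 = true := by have := h 0 0; rw [hr0, hc0] at this; exact this
  have f01 : fakeTab a0 b1 = true := by have := h 0 1; rw [hr0, hc1] at this; exact this
  have f10 : fakeTab a1 b0 = true := by have := h 1 0; rw [hr1, hc0] at this; exact this
  have f11 : fakeTab a1 b1 = true := by have := h 1 1; rw [hr1, hc1] at this; exact this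
  have vr : ∀ j, tabSix a0 (classSix (c j)) = patH 0 j ∧
      tabSix a1 (classSix (c j)) = patH 1 j := by
    intro j
    have := h 0 j; rw [hr0, host_fake] at this
    have h' := h 1 j; rw [hr1, host_fake] at h'
    exact ⟨this, h'⟩
  have vc : ∀ i, tabSix b0 (classSix (r i)) = patH 0 i ∧
      tabSix b1 (classSix (r i)) = patH 1 i := by
    intro i
    have := h i 0; rw [hc0, host_symm, host_fake, patH_symm] at this
    have h' := h i 1; rw [hc1, host_symm, host_fake, patH_symm] at h'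
    exact ⟨this, h'⟩
  have m2 := classSix_mono (hc 1 2 (by decide))
  have n2 := classSix_mono (hr 1 2 (by decide))
  rw [hc1] at m2
  rw [hr1] at n2
  have hc4 := fake_case a0 a1 b0 b1 ha hb f00 f01 f10 f11 _ m2 (vr 2).1 (vr 2).2
    _ (classSix_mono (hc 2 3 (by decide))) (vr 3).1 (vr 3).2
    _ (classSix_mono (hc 3 4 (by decide))) (vr 4).1 (vr 4).2
  have hr4 := fake_case b0 b1 a0 a1 hb ha (fakeTab_symm a0 b0 ▸ f00) (fakeTab_symm a1 b0 ▸ f10)
    (fakeTab_symm a0 b1 ▸ f01) (fakeTab_symm a1 b1 ▸ f11) _ n2 (vc 2).1 (vc 2).2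
    _ (classSix_mono (hr 2 3 (by decide))) (vc 3).1 (vc 3).2
    _ (classSix_mono (hr 3 4 (by decide))) (vc 4).1 (vc 4).2
  have bottom : ∀ e : Pos L, classSix e = 4 → ∃ s q, e = tpos s (Fin.last L) q := by
    rintro ⟨a | ⟨k, t⟩ | ⟨s, l⟩, q⟩ he
    · have := congrArg Fin.val he; have := a.isLt; simp [classSix] at *; omega
    · simp [classSix] at he
    · by_cases hl : l.val = L
      · exact ⟨s, q, by rw [show l = Fin.last L from Fin.ext hl]; rfl⟩
      · simp [classSix, hl] at he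
  obtain ⟨s, q, er⟩ := bottom _ hr4
  obtain ⟨s', q', ec⟩ := bottom _ hc4
  have := h 4 4
  rw [er, ec, host_tpos] at this
  have h2 := (of_decide_eq_true (this.trans rfl)).2
  exact h2 ⟨rfl, rfl⟩

theorem upT {f : Fin 5 → Pos L} (hf : ∀ i j, i ≤ j → mainKey (f i) ≤ mainKey (f j))
    {i j : Fin 5} (hij : i ≤ j) (hi : IsTree (f i)) : IsTree (f j) := by
  rw [tree_iff] at hi ⊢
  exact hi.trans (hf i j hij)

theorem host_anc (k k' : Bool) (t t' : Tau L) (p p' : Fin (2 ^ L)) :
    host (.inr (.inl (k, t)), p) (.inr (.inl (k', t')), p') =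
      decide (t' = t.swap ∧ Allowed t) := rfl

theorem host_anc_fake (k : Bool) (t : Tau L) (b : Fin 4) (p p' : Fin (2 ^ L)) :
    host (.inr (.inl (k, t)), p) (.inl b, p') = false := rfl

/-- Two second elements cannot be split between tree and non-tree. -/
theorem lam {r c : Fin 5 → Pos L} (hr : ∀ i j, i ≤ j → mainKey (r i) ≤ mainKey (r j))
    (hc : ∀ i j, i ≤ j → mainKey (c i) ≤ mainKey (c j))
    (h : ∀ i j, host (r i) (c j) = patH i j) (h1 : ¬ IsTree (r 1)) : ¬ IsTree (c 1) := fun hc1 =>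
  laminar (fun h0 => h1 (upT hr (by decide) h0)) h1 hc1 (upT hc (j := 2) (by decide) hc1)
    (upT hc (j := 3) (by decide) hc1) (h 0 1) (h 1 1) (h 0 2) (h 1 2) (h 0 3) (h 1 3)

theorem ksep {r c : Fin 5 → Pos L} {k0 k1 : Bool} {t : Tau L} {p0 p1 : Fin (2 ^ L)}
    (hr : ∀ i j, i ≤ j → mainKey (r i) ≤ mainKey (r j))
    (h : ∀ i j, host (r i) (c j) = patH i j)
    (e0 : r 0 = (.inr (.inl (k0, t)), p0)) (e1 : r 1 = (.inr (.inl (k1, t)), p1)) :
    k0 = false ∧ k1 = true := by
  have hm := hr 0 1 (by decide)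
  have h2 : host (r 0) (c 2) = true := h 0 2
  have h2' : host (r 1) (c 2) = false := h 1 2
  rw [e0] at h2 hm
  rw [e1] at h2' hm
  have same : k0 = k1 → False := by
    rintro rfl
    rcases hc2 : c 2 with ⟨b | ⟨k, w⟩ | ⟨s, l⟩, q⟩ <;> rw [hc2] at h2 h2'
    · exact Bool.noConfusion (h2.symm.trans h2')
    · exact Bool.noConfusion (h2.symm.trans h2')
    · exact Bool.noConfusion (h2.symm.trans h2')
  cases k0 <;> cases k1 <;> simp_all [mainKey]

theorem trees {r c : Fin 5 → Pos L} {t : Tau L} {p0 p1 : Fin (2 ^ L)}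
    (hc : ∀ i j, i ≤ j → mainKey (c i) ≤ mainKey (c j))
    (h : ∀ i j, host (r i) (c j) = patH i j)
    (e0 : r 0 = (.inr (.inl (false, t)), p0)) (e1 : r 1 = (.inr (.inl (true, t)), p1))
    (i : Fin 5) (hi : 2 ≤ i) : IsTree (c i) := by
  apply upT hc hi
  have h2 : host (r 0) (c 2) = true := h 0 2
  have h2' : host (r 1) (c 2) = false := h 1 2
  rw [e0] at h2
  rw [e1] at h2'
  rcases hc2 : c 2 with ⟨b | ⟨k, w⟩ | ⟨s, l⟩, q⟩ <;> rw [hc2] at h2 h2'
  · rw [host_anc_fake] at h2
    exact Bool.noConfusion h2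
  · rw [host_anc] at h2 h2'
    exact Bool.noConfusion (h2.symm.trans h2')
  · exact ⟨s, l, q, rfl⟩

/-- Every copy meets some leaf twice. -/
theorem copy_leaf (r c : Fin 5 → Pos L)
    (hr : ∀ i j, i ≤ j → mainKey (r i) ≤ mainKey (r j))
    (hc : ∀ i j, i ≤ j → mainKey (c i) ≤ mainKey (c j))
    (h : ∀ i j, host (r i) (c j) = patH i j) : ∃ i j, LeafPair (r i) (c j) := by
  by_cases hT : IsTree (r 1) ∧ IsTree (c 1)
  · obtain ⟨s1, l1, q1, e1⟩ := hT.1
    obtain ⟨s2, l2, q2, e2⟩ := upT hr (j := 2) (by decide) hT.1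
    obtain ⟨s3, l3, q3, e3⟩ := upT hr (j := 3) (by decide) hT.1
    obtain ⟨t1, m1, p1, f1⟩ := hT.2
    obtain ⟨t2, m2, p2, f2⟩ := upT hc (j := 2) (by decide) hT.2
    obtain ⟨t3, m3, p3, f3⟩ := upT hc (j := 3) (by decide) hT.2
    by_contra hno
    have pos : ∀ a b, patH a b = true → ∀ s l q s' l' q', r a = tpos s l q →
        c b = tpos s' l' q' → Comp L l.val l'.val q q' := by
      intro a b hab s l q s' l' q' e e'
      have := h a b
      rw [e, e', host_tpos, hab] at this
      exact adj_true this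
    have neg : ∀ a b, patH a b = false → ∀ s l q s' l' q', r a = tpos s l q →
        c b = tpos s' l' q' → ¬ Comp L l.val l'.val q q' := by
      intro a b hab s l q s' l' q' e e'
      have := h a b
      rw [e, e', host_tpos, hab] at this
      rcases adj_false (s := s) (s' := s') this with hn | hp
      · exact hn
      · exact absurd ⟨a, b, by rw [e, e']; exact hp⟩ hno
    exact no_hexagon (b := l2.val) l3.is_le l1.is_le m1.is_le m2.is_le
      (pos 3 1 rfl _ _ _ _ _ _ e3 f1) (pos 3 2 rfl _ _ _ _ _ _ e3 f2)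
      (neg 3 3 rfl _ _ _ _ _ _ e3 f3) (pos 1 1 rfl _ _ _ _ _ _ e1 f1)
      (pos 1 3 rfl _ _ _ _ _ _ e1 f3) (neg 1 2 rfl _ _ _ _ _ _ e1 f2)
      (pos 2 2 rfl _ _ _ _ _ _ e2 f2) (neg 2 1 rfl _ _ _ _ _ _ e2 f1)
  -- both second elements lie outside the tree
  have hsymm : ∀ i j, host (c i) (r j) = patH i j := fun i j => by
    rw [host_symm, h j i, patH_symm]
  have hn : ¬ IsTree (r 1) ∧ ¬ IsTree (c 1) := by
    by_cases h1 : IsTree (r 1)
    · have := fun h' => hT ⟨h1, h'⟩
      exact ⟨lam hc hr hsymm this, this⟩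
    · exact ⟨h1, lam hr hc h h1⟩
  have hr0 : ¬ IsTree (r 0) := fun h0 => hn.1 (upT hr (by decide) h0)
  have hc0 : ¬ IsTree (c 0) := fun h0 => hn.2 (upT hc (by decide) h0)
  have h00 : host (r 0) (c 0) = true := h 0 0
  have h01 : host (r 0) (c 1) = true := h 0 1
  have h10 : host (r 1) (c 0) = true := h 1 0
  have h11 : host (r 1) (c 1) = true := h 1 1
  obtain ⟨R0, p0, er0⟩ : ∃ S p, r 0 = (S, p) := ⟨_, _, rfl⟩
  obtain ⟨R1, p1, er1⟩ : ∃ S p, r 1 = (S, p) := ⟨_, _, rfl⟩
  obtain ⟨C0, u0, ec0⟩ : ∃ S p, c 0 = (S, p) := ⟨_, _, rfl⟩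
  obtain ⟨C1, u1, ec1⟩ : ∃ S p, c 1 = (S, p) := ⟨_, _, rfl⟩
  rw [er0, ec0] at h00
  rw [er0, ec1] at h01
  rw [er1, ec0] at h10
  rw [er1, ec1] at h11
  rcases R0 with a0 | ⟨k0, t0⟩ | ⟨s0, l0⟩
  pick_goal 3
  · exact absurd ⟨s0, l0, p0, er0⟩ hr0
  · rcases C0 with b0 | ⟨k', t'⟩ | ⟨s', l'⟩
    · rcases C1 with b1 | ⟨k', t'⟩ | ⟨s', l'⟩
      · rcases R1 with a1 | ⟨k', t'⟩ | ⟨s', l'⟩
        · exact (fake_false r c a0 a1 b0 b1 p0 p1 u0 u1 er0 er1 ec0 ec1 hr hc h).elim
        · simp [host] at h10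
        · exact absurd ⟨s', l', p1, er1⟩ hn.1
      · simp [host] at h01
      · exact absurd ⟨s', l', u1, ec1⟩ hn.2
    · simp [host] at h00
    · exact absurd ⟨s', l', u0, ec0⟩ hc0
  rcases C0 with b0 | ⟨j0, w0⟩ | ⟨s', l'⟩
  · simp [host] at h00
  pick_goal 2
  · exact absurd ⟨s', l', u0, ec0⟩ hc0
  rcases C1 with b1 | ⟨j1, w1⟩ | ⟨s', l'⟩
  · simp [host] at h01
  pick_goal 2
  · exact absurd ⟨s', l', u1, ec1⟩ hn.2
  rcases R1 with a1 | ⟨k1, t1⟩ | ⟨s', l'⟩
  · simp [host] at h10
  pick_goal 2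
  · exact absurd ⟨s', l', p1, er1⟩ hn.1
  simp only [host] at h00 h01 h10 h11
  obtain ⟨hw0, hall⟩ := of_decide_eq_true h00
  obtain ⟨hw1, -⟩ := of_decide_eq_true h01
  obtain ⟨hw0', hall1⟩ := of_decide_eq_true h10
  obtain rfl : t1 = t0 := Prod.swap_injective (hw0'.symm.trans hw0)
  subst hw0
  subst hw1
  obtain ⟨rfl, rfl⟩ := ksep hr h er0 er1
  obtain ⟨rfl, rfl⟩ := ksep hc hsymm ec0 ec1
  refine anchor_case r c t1 p0 p1 u0 u1 hall er0 er1 ec0 ec1 ?_ ?_ hr hc h
  · exact trees hr hsymm ec0 ec1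
  · exact trees hc h er0 er1

end Vale.Agent.P037.Refute
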