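import Mathlib
import Vale.Agent.P037.Refute.NoCopy

/-!
The host is far from free: representatives along one root-to-leaf path force a copy.
-/

namespace Vale.Agent.P037.Refute

variable {L : ℕ}

/-- Deep classes: tree bands below the root. -/
def Deep : Slot L → Prop
  | .inr (.inr (_, l)) => l.val ≠ 0
  | _ => False

instance : DecidablePred (Deep (L := L))
  | .inl _ => inferInstanceAs (Decidable False)
  | .inr (.inl _) => inferInstanceAs (Decidable False)
  | .inr (.inr (_, l)) => inferInstanceAs (Decidable (l.val ≠ 0))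

/-- The representative of a class: offset `q` if deep, else `o`. -/
def rep (o q : Fin (2 ^ L)) (S : Slot L) : Pos L := (S, if Deep S then q else o)

theorem exists_reps (B : Pos L → Pos L → Bool)
    (hD : (Finset.univ.filter fun p : Pos L × Pos L => host p.1 p.2 ≠ B p.1 p.2).card
      < 2 ^ L * 2 ^ L) :
    ∃ o o' q : Fin (2 ^ L), ∀ S T, ¬(Deep S ∧ Deep T) →
      B (rep o q S) (rep o' q T) = host (rep o q S) (rep o' q T) := by
  by_contra hno
  push Not at hno
  choose S T hST hne using hno
  let D := Finset.univ.filter fun p : Pos L × Pos L => host p.1 p.2 ≠ B p.1 p.2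
  let f : Fin (2 ^ L) × Fin (2 ^ L) × Fin (2 ^ L) → (Pos L × Pos L) × Fin (2 ^ L) :=
    fun x => ((rep x.1 x.2.2 (S x.1 x.2.1 x.2.2), rep x.2.1 x.2.2 (T x.1 x.2.1 x.2.2)),
      if Deep (S x.1 x.2.1 x.2.2) then x.1 else
        if Deep (T x.1 x.2.1 x.2.2) then x.2.1 else x.2.2)
  have hf : Function.Injective f := by
    rintro ⟨a, b, c⟩ ⟨a', b', c'⟩ h
    simp only [f, rep, Prod.mk.injEq] at h
    obtain ⟨⟨⟨hS, hSo⟩, hT, hTo⟩, hfree⟩ := h
    have := hST a b c
    rw [← hS] at hSo hfree
    rw [← hT] at hTo hfree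
    by_cases d1 : Deep (S a b c) <;> by_cases d2 : Deep (T a b c) <;> simp_all
  have hle : (Finset.univ : Finset (Fin (2 ^ L) × Fin (2 ^ L) × Fin (2 ^ L))).card ≤
      (D ×ˢ (Finset.univ : Finset (Fin (2 ^ L)))).card := by
    apply Finset.card_le_card_of_injOn f
    · intro x _
      simp only [Finset.coe_product, Set.mem_prod, Finset.mem_coe, Finset.mem_univ, and_true]
      simp only [D, Finset.mem_filter, Finset.mem_univ, true_and]
      exact fun h => hne x.1 x.2.1 x.2.2 h.symm
    · exact hf.injOn
  simp only [Finset.card_product, Finset.card_univ, Fintype.card_prod, Fintype.card_fin] at hle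
  have : 2 ^ L * 2 ^ L ≤ D.card := by
    apply Nat.le_of_mul_le_mul_right (c := 2 ^ L) _ (Nat.two_pow_pos L)
    rw [mul_assoc]; exact hle
  exact absurd hD (not_lt.2 this)

theorem deep_tree (s : Bool) (l : Fin (L + 1)) :
    Deep (L := L) (.inr (.inr (s, l))) ↔ l.val ≠ 0 := Iff.rfl

theorem rep_pre (o q : Fin (2 ^ L)) (s : Bool) (l : Fin (L + 1)) {m : ℕ} (hm : m ≤ l.val) :
    pre L m (rep o q (.inr (.inr (s, l)))).2 = pre L m q := by
  simp only [rep, deep_tree]
  by_cases h : l.val = 0
  · obtain rfl : m = 0 := by omega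
    simp [pre_zero]
  · simp [h]

/-- A child band lies strictly inside the bands of its parent. -/
theorem band_inside {i : ℕ} (hi : i < L) (s : Bool) {a b a' : Fin (2 ^ L)}
    (h : pre L i b = pre L i a) (h' : pre L i b = pre L i a') :
    band L false i a < band L s (i + 1) b ∧ band L s (i + 1) b < band L true i a' := by
  have e1 : pre L i b = pre L (i + 1) b / 2 := by
    rw [pre_pre (m := i) (l := i + 1) (by omega) (by omega) b]
    simp [show i + 1 - i = 1 by omega]
  have e2 : 2 ^ (L - i) = 2 * 2 ^ (L - (i + 1)) := by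
    rw [← pow_succ']; congr 1; omega
  have hp : 0 < 2 ^ (L - (i + 1)) := Nat.two_pow_pos _
  obtain ⟨W, hW⟩ : ∃ W, 2 ^ (L - (i + 1)) * (2 * L + 3) = W := ⟨_, rfl⟩
  have hW' : 2 * L + 3 ≤ W := hW ▸ Nat.le_mul_of_pos_left _ hp
  obtain ⟨P, hP⟩ : ∃ P, pre L i b = P := ⟨_, rfl⟩
  obtain ⟨Q, hQ⟩ : ∃ Q, pre L (i + 1) b = Q := ⟨_, rfl⟩
  rw [hP, hQ] at e1
  rw [hP] at h h'
  have ha : band L false i a = 2 * (P * W) + i := by
    simp only [band, ← h, e2, ← hW, Bool.false_eq_true, if_false]; ring
  have ha' : band L true i a' = 2 * (P * W) + 2 * W - 1 - i := by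
    simp only [band, ← h', e2, ← hW, if_true]; ring_nf
  have hb : band L s (i + 1) b = if s then Q * W + W - 1 - (i + 1) else Q * W + (i + 1) := by
    simp only [band, hQ, ← hW, mul_assoc, add_mul, one_mul]
  rw [ha, ha', hb]
  rcases (show Q = 2 * P ∨ Q = 2 * P + 1 by omega) with rfl | rfl <;> cases s <;>
    simp only [Bool.false_eq_true, if_true, if_false, add_mul, one_mul, mul_assoc] <;> omega

theorem treeAdj_zero (hL : 1 ≤ L) {l l' : ℕ} (h : l = 0 ∨ l' = 0) (q q' : Fin (2 ^ L)) :
    treeAdj L l l' q q' = true := by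
  apply decide_eq_true
  refine ⟨?_, by omega⟩
  rw [Comp, show min l l' = 0 by omega, pre_zero, pre_zero]

/-- Freeness in terms of keys. -/
def KeyFree (B : Pos L → Pos L → Bool) : Prop :=
  ∀ r c : Fin 5 → Pos L, (∀ i j, i < j → posKey (r i) < posKey (r j)) →
    (∀ i j, i < j → posKey (c i) < posKey (c j)) → ¬ ∀ i j, B (r i) (c j) = patH i j

theorem key_lt_of_five {f : Fin 5 → Pos L} (h0 : mainKey (f 0) < mainKey (f 1))
    (h1 : mainKey (f 1) < mainKey (f 2)) (h2 : mainKey (f 2) < mainKey (f 3))
    (h3 : mainKey (f 3) < mainKey (f 4)) : ∀ i j, i < j → posKey (f i) < posKey (f j) := by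
  intro i j hij
  apply posKey_lt
  revert hij
  fin_cases i <;> fin_cases j <;> simp <;> omega

/-- One forcing step. -/
theorem step (B : Pos L → Pos L → Bool) (hB : KeyFree B) (o o' q : Fin (2 ^ L))
    (hag : ∀ S T, ¬(Deep S ∧ Deep T) →
      B (rep o q S) (rep o' q T) = host (rep o q S) (rep o' q T))
    (li lj : Fin (L + 1)) (s s' : Bool) (i j : ℕ) (ei : li.val = i + 1) (ej : lj.val = j + 1)
    (hind : ∀ (a b : Bool) (k k' : Fin (L + 1)), k.val + k'.val < li.val + lj.val →
      B (rep o q (.inr (.inr (a, k)))) (rep o' q (.inr (.inr (b, k')))) = true) :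
    B (rep o q (.inr (.inr (s, li)))) (rep o' q (.inr (.inr (s', lj)))) = true := by
  have hi : i < L := by omega
  have hj : j < L := by omega
  let t : Tau L := ((⟨j, hj⟩, bit L (j + 1) q), (⟨i, hi⟩, bit L (i + 1) q))
  have hall : Allowed t := by
    intro e
    simp only [t, Fin.mk.injEq] at e
    simp only [t, e]
  let ki : Fin (L + 1) := ⟨i, by omega⟩
  let kj : Fin (L + 1) := ⟨j, by omega⟩
  let R : Fin 5 → Slot L := ![.inr (.inl (false, t)), .inr (.inl (true, t)),
    .inr (.inr (false, ki)), .inr (.inr (s, li)), .inr (.inr (true, ki))]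
  let C : Fin 5 → Slot L := ![.inr (.inl (false, t.swap)), .inr (.inl (true, t.swap)),
    .inr (.inr (false, kj)), .inr (.inr (s', lj)), .inr (.inr (true, kj))]
  by_contra hne
  rw [Bool.not_eq_true] at hne
  have hq : ∀ (o : Fin (2 ^ L)) (a : Bool) (l : Fin (L + 1)), l.val ≠ 0 →
      rep o q (.inr (.inr (a, l))) = (.inr (.inr (a, l)), q) := by
    intro o a l h; simp [rep, deep_tree, h]
  apply hB (fun k => rep o q (R k)) (fun k => rep o' q (C k))
  · have hb := band_inside hi s (b := q) (a := (rep o q (.inr (.inr (false, ki)))).2)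
      (a' := (rep o q (.inr (.inr (true, ki)))).2)
      (rep_pre o q false ki (le_refl i)).symm (rep_pre o q true ki (le_refl i)).symm
    apply key_lt_of_five
    · simp [R, rep, mainKey]
    · simp [R, rep, mainKey]; omega
    · change mainKey (rep o q (.inr (.inr (false, ki)))) <
        mainKey (rep o q (.inr (.inr (s, li))))
      rw [hq o s li (by omega)]
      simp only [mainKey, ei]
      exact Nat.add_lt_add_left hb.1 6
    · change mainKey (rep o q (.inr (.inr (s, li)))) <
        mainKey (rep o q (.inr (.inr (true, ki))))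
      rw [hq o s li (by omega)]
      simp only [mainKey, ei]
      exact Nat.add_lt_add_left hb.2 6
  · have hb := band_inside hj s' (b := q) (a := (rep o' q (.inr (.inr (false, kj)))).2)
      (a' := (rep o' q (.inr (.inr (true, kj)))).2)
      (rep_pre o' q false kj (le_refl j)).symm (rep_pre o' q true kj (le_refl j)).symm
    apply key_lt_of_five
    · simp [C, rep, mainKey]
    · simp [C, rep, mainKey]; omega
    · change mainKey (rep o' q (.inr (.inr (false, kj)))) <
        mainKey (rep o' q (.inr (.inr (s', lj))))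
      rw [hq o' s' lj (by omega)]
      simp only [mainKey, ej]
      exact Nat.add_lt_add_left hb.1 6
    · change mainKey (rep o' q (.inr (.inr (s', lj)))) <
        mainKey (rep o' q (.inr (.inr (true, kj))))
      rw [hq o' s' lj (by omega)]
      simp only [mainKey, ej]
      exact Nat.add_lt_add_left hb.2 6
  · intro a b
    have nd : ∀ (k : Bool) (u : Tau L), ¬ Deep (L := L) (.inr (.inl (k, u))) := fun _ _ h => h
    fin_cases a <;> fin_cases b <;> simp [R, C, patH]
    all_goals first
      | exact hne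
      | (apply hind; simp [ki, kj]; omega)
      | (rw [hag _ _ (fun h => nd _ _ h.1)]
         simp [rep, host, ancTree, deep_tree, t, ki, kj, hall, ei, ej, allowed_swap]
         done)
      | (rw [hag _ _ (fun h => nd _ _ h.2)]
         simp [rep, host, ancTree, deep_tree, t, ki, kj, hall, ei, ej, allowed_swap]
         done)

/-- A free matrix cannot agree on the coarse cells of one path. -/
theorem no_reps (hL : 1 ≤ L) (B : Pos L → Pos L → Bool) (hB : KeyFree B) (o o' q : Fin (2 ^ L))
    (hag : ∀ S T, ¬(Deep S ∧ Deep T) →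
      B (rep o q S) (rep o' q T) = host (rep o q S) (rep o' q T)) : False := by
  have claim : ∀ (m : ℕ) (s s' : Bool) (l l' : Fin (L + 1)), l.val + l'.val = m →
      B (rep o q (.inr (.inr (s, l)))) (rep o' q (.inr (.inr (s', l')))) = true := by
    intro m
    induction m using Nat.strong_induction_on with
    | _ m ih =>
      intro s s' l l' hm
      by_cases h : l.val = 0 ∨ l'.val = 0
      · have hnd : ¬(Deep (L := L) (.inr (.inr (s, l))) ∧ Deep (L := L) (.inr (.inr (s', l')))) := by
          simp only [deep_tree]; omega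
        rw [hag _ _ hnd]
        exact treeAdj_zero hL h _ _
      · obtain ⟨i, ei⟩ : ∃ i, l.val = i + 1 := ⟨l.val - 1, by omega⟩
        obtain ⟨j, ej⟩ : ∃ j, l'.val = j + 1 := ⟨l'.val - 1, by omega⟩
        exact step B hB o o' q hag l l' s s' i j ei ej
          (fun a b k k' hk => ih _ (by omega) a b k k' rfl)
  let R : Fin 5 → Slot L := ![.inl 0, .inl 1, .inl 2, .inl 3, .inr (.inr (false, Fin.last L))]
  apply hB (fun k => rep o q (R k)) (fun k => rep o' q (R k))
  · apply key_lt_of_five <;> simp [R, rep, mainKey] <;> omega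
  · apply key_lt_of_five <;> simp [R, rep, mainKey] <;> omega
  · intro a b
    have nd : ∀ (x : Fin 4), ¬ Deep (L := L) (.inl x) := fun _ h => h
    fin_cases a <;> fin_cases b <;> simp [R, patH]
    all_goals first
      | exact claim _ _ _ _ _ rfl
      | (rw [hag _ _ (fun h => nd _ h.1)]; simp [rep, host, fakeTab, fakeTree]; done)
      | (rw [hag _ _ (fun h => nd _ h.2)]; simp [rep, host, fakeTab, fakeTree]; done)

end Vale.Agent.P037.Refute
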