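import Mathlib
import Vale.Agent.P037.Refute.Forced

/-!
Assembly: a single pattern with no polynomial removal bound.
-/

namespace Vale.Agent.P037.Refute

open Vale.Agent.P037

variable {L : ℕ}

/-- Number of rows. -/
abbrev size (L : ℕ) : ℕ := Fintype.card (Pos L)

theorem exists_sorted (L : ℕ) :
    ∃ e : Fin (size L) ≃ Pos L, ∀ i j, i < j → posKey (e i) < posKey (e j) := by
  let f : Fin (size L) → ℕ := fun i => posKey ((Fintype.equivFin (Pos L)).symm i)
  have hinj : Function.Injective f :=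
    posKey_injective.comp (Fintype.equivFin (Pos L)).symm.injective
  refine ⟨(Tuple.sort f).trans (Fintype.equivFin (Pos L)).symm, fun i j hij => ?_⟩
  exact ((Tuple.monotone_sort f).strictMono_of_injective
    (hinj.comp (Tuple.sort f).injective)) hij

/-- The host as a matrix. -/
noncomputable def hostMat (L : ℕ) (e : Fin (size L) ≃ Pos L) :
    Fin (size L) → Fin (size L) → Bool := fun i j => host (e i) (e j)

theorem copies_bound (L : ℕ) (e : Fin (size L) ≃ Pos L)
    (he : ∀ i j, i < j → posKey (e i) < posKey (e j)) :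
    copyCount patH (hostMat L e) ≤ 100 * 2 ^ L * size L ^ 8 := by
  classical
  let T := {p : (Fin 5 → Fin (size L)) × (Fin 5 → Fin (size L)) //
    IsCopy patH (hostMat L e) p.1 p.2}
  have hex : ∀ p : T, ∃ (i j : Fin 5) (s s' : Bool) (q : Fin (2 ^ L)),
      e (p.1.1 i) = tpos s (Fin.last L) q ∧ e (p.1.2 j) = tpos s' (Fin.last L) q := by
    rintro ⟨⟨r, c⟩, hr, hc, h⟩
    have mono : ∀ {f : Fin 5 → Fin (size L)}, StrictMono f →
        ∀ i j, i ≤ j → mainKey (e (f i)) ≤ mainKey (e (f j)) := by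
      intro f hf i j hij
      rcases eq_or_lt_of_le hij with rfl | hlt
      · exact le_rfl
      · exact mainKey_le (he _ _ (hf hlt))
    obtain ⟨i, j, s, s', q, h1, h2⟩ :=
      copy_leaf (fun i => e (r i)) (fun i => e (c i)) (mono hr) (mono hc) h
    exact ⟨i, j, s, s', q, h1, h2⟩
  choose I J S S' Q h1 h2 using hex
  let g : T → (Fin 5 × Fin 5) × (Bool × Bool × Fin (2 ^ L)) ×
      ((Fin 4 → Fin (size L)) × (Fin 4 → Fin (size L))) :=
    fun p => ((I p, J p), (S p, S' p, Q p),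
      (fun k => p.1.1 ((I p).succAbove k)), (fun k => p.1.2 ((J p).succAbove k)))
  have hg : Function.Injective g := by
    intro p p' h
    simp only [g, Prod.mk.injEq] at h
    obtain ⟨⟨hI, hJ⟩, ⟨hS, hS', hQ⟩, hr, hc⟩ := h
    apply Subtype.ext
    refine Prod.ext (funext fun k => ?_) (funext fun k => ?_)
    · rcases Fin.eq_self_or_eq_succAbove (I p) k with rfl | ⟨m, rfl⟩
      · apply e.injective
        rw [h1 p, hI, h1 p', hS, hQ]
      · have := congrFun hr m
        rw [hI] at this ⊢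
        exact this
    · rcases Fin.eq_self_or_eq_succAbove (J p) k with rfl | ⟨m, rfl⟩
      · apply e.injective
        rw [h2 p, hJ, h2 p', hS', hQ]
      · have := congrFun hc m
        rw [hJ] at this ⊢
        exact this
  have := Nat.card_le_card_of_injective g hg
  refine le_trans this (le_of_eq ?_)
  simp only [Nat.card_eq_fintype_card, Fintype.card_prod, Fintype.card_fin, Fintype.card_bool,
    Fintype.card_fun]
  ring

theorem size_le (L : ℕ) : size L ≤ 8 * (L + 1) ^ 2 * 2 ^ L := by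
  rw [size, card_pos_eq]
  apply Nat.mul_le_mul_right
  nlinarith

theorem two_pow_le_size (L : ℕ) : 2 ^ L ≤ size L := by
  rw [size, card_pos_eq]
  exact Nat.le_mul_of_pos_left _ (by omega)

theorem host_far (hL : 1 ≤ L) (e : Fin (size L) ≃ Pos L)
    (he : ∀ i j, i < j → posKey (e i) < posKey (e j)) :
    Far patH (hostMat L e) (1 / (64 * ((L : ℝ) + 1) ^ 4)) := by
  classical
  intro B hB
  by_contra hlt
  push Not at hlt
  let B' : Pos L → Pos L → Bool := fun a b => B (e.symm a) (e.symm b)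
  have hfree : KeyFree B' := by
    intro r c hr hc h
    have mono : ∀ {f : Fin 5 → Pos L}, (∀ i j, i < j → posKey (f i) < posKey (f j)) →
        StrictMono fun i => e.symm (f i) := by
      intro f hf i j hij
      by_contra hh
      rcases eq_or_lt_of_le (not_lt.1 hh) with heq | hl
      · have := hf i j hij
        rw [e.symm.injective heq] at this
        exact lt_irrefl _ this
      · have := he _ _ hl
        simp only [Equiv.apply_symm_apply] at this
        exact lt_irrefl _ (this.trans (hf i j hij))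
    exact hB _ _ ⟨mono hr, mono hc, h⟩
  let D := Finset.univ.filter fun p : Pos L × Pos L => host p.1 p.2 ≠ B' p.1 p.2
  have hD : D.card = diffCount (hostMat L e) B := by
    rw [diffCount, Nat.card_eq_fintype_card, Fintype.card_subtype]
    refine Finset.card_bij' (fun p _ => (e.symm p.1, e.symm p.2)) (fun p _ => (e p.1, e p.2))
      ?_ ?_ ?_ ?_
    · intro p hp
      have := (Finset.mem_filter.1 hp).2
      refine Finset.mem_filter.2 ⟨Finset.mem_univ _, ?_⟩
      simpa [hostMat, B'] using this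
    · intro p hp
      have := (Finset.mem_filter.1 hp).2
      refine Finset.mem_filter.2 ⟨Finset.mem_univ _, ?_⟩
      simpa [hostMat, B'] using this
    · intro p _; simp
    · intro p _; simp
  have hsmall : D.card < 2 ^ L * 2 ^ L := by
    have hn : (size L : ℝ) ≤ 8 * ((L : ℝ) + 1) ^ 2 * 2 ^ L := by exact_mod_cast size_le L
    have hpos : (0 : ℝ) < 64 * ((L : ℝ) + 1) ^ 4 := by positivity
    have h2 : (size L : ℝ) ^ 2 ≤ (8 * ((L : ℝ) + 1) ^ 2 * 2 ^ L) ^ 2 := by gcongr
    have h3 : (D.card : ℝ) < 2 ^ L * 2 ^ L := by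
      rw [hD]
      refine lt_of_lt_of_le hlt ?_
      rw [one_div_mul_eq_div, div_le_iff₀ hpos]
      nlinarith [h2]
    exact_mod_cast h3
  obtain ⟨o, o', q, hag⟩ := exists_reps B' hsmall
  exact no_reps hL B' hfree o o' q hag

theorem removal_fails :
    ∃ H : Fin 5 → Fin 5 → Bool,
      (∀ L : ℕ, 1 ≤ L → ∃ (n : ℕ) (A : Fin n → Fin n → Bool), 1 ≤ n ∧
        Far H A (1 / (64 * ((L : ℝ) + 1) ^ 4)) ∧
        (copyCount H A : ℝ) ≤ 100 / 2 ^ L * (n : ℝ) ^ 10) ∧
      ∀ c C : ℝ, 0 < c → ∃ (n : ℕ) (A : Fin n → Fin n → Bool) (ε : ℝ),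
        1 ≤ n ∧ 0 < ε ∧ ε < 1 ∧ Far H A ε ∧ (copyCount H A : ℝ) < c * ε ^ C * (n : ℝ) ^ (2 * 5) := by
  have main : ∀ L : ℕ, 1 ≤ L → ∃ (n : ℕ) (A : Fin n → Fin n → Bool), 1 ≤ n ∧
        Far patH A (1 / (64 * ((L : ℝ) + 1) ^ 4)) ∧
        (copyCount patH A : ℝ) ≤ 100 / 2 ^ L * (n : ℝ) ^ 10 := by
    intro L hL
    obtain ⟨e, he⟩ := exists_sorted L
    refine ⟨size L, hostMat L e, le_trans (Nat.one_le_two_pow) (two_pow_le_size L),
      host_far hL e he, ?_⟩
    have h : (copyCount patH (hostMat L e) : ℝ) ≤ 100 * 2 ^ L * (size L : ℝ) ^ 8 := by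
      exact_mod_cast copies_bound L e he
    refine le_trans h ?_
    have h2 : (2 : ℝ) ^ L * 2 ^ L ≤ (size L : ℝ) ^ 2 := by
      have h3 : (2 : ℝ) ^ L ≤ (size L : ℝ) := by exact_mod_cast two_pow_le_size L
      rw [sq]; exact mul_le_mul h3 h3 (by positivity) (by positivity)
    rw [div_mul_eq_mul_div, le_div_iff₀ (by positivity)]
    calc 100 * 2 ^ L * (size L : ℝ) ^ 8 * 2 ^ L
        = 100 * (size L : ℝ) ^ 8 * (2 ^ L * 2 ^ L) := by ring
      _ ≤ 100 * (size L : ℝ) ^ 8 * (size L : ℝ) ^ 2 := by gcongr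
      _ = 100 * (size L : ℝ) ^ 10 := by ring
  refine ⟨patH, main, fun c C hc => ?_⟩
  obtain ⟨m, hm⟩ := exists_nat_ge C
  have hlim := tendsto_pow_const_div_const_pow_of_one_lt (4 * m) (one_lt_two : (1 : ℝ) < 2)
  have hδ : (0 : ℝ) < c / (100 * (1024 : ℝ) ^ m) := by positivity
  obtain ⟨L, hLb, hL⟩ := ((hlim.eventually (eventually_lt_nhds hδ)).and
    (Filter.eventually_ge_atTop 1)).exists
  obtain ⟨n, A, hn, hfar, hcount⟩ := main L hL
  have hL' : (1 : ℝ) ≤ (L : ℝ) := by exact_mod_cast hL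
  have hden : (1 : ℝ) < 64 * ((L : ℝ) + 1) ^ 4 := by
    have : (1 : ℝ) ≤ ((L : ℝ) + 1) ^ 4 := one_le_pow₀ (by linarith)
    linarith
  set ε : ℝ := 1 / (64 * ((L : ℝ) + 1) ^ 4) with hεdef
  have hε0 : 0 < ε := by rw [hεdef]; positivity
  have hε1 : ε < 1 := by rw [hεdef, div_lt_one (by linarith)]; exact hden
  refine ⟨n, A, ε, hn, hε0, hε1, hfar, lt_of_le_of_lt hcount ?_⟩
  have hnp : (0 : ℝ) < (n : ℝ) ^ (2 * 5) := by positivity
  refine mul_lt_mul_of_pos_right (lt_of_lt_of_le ?_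
    (mul_le_mul_of_nonneg_left (Real.rpow_le_rpow_of_exponent_ge hε0 hε1.le hm) hc.le)) hnp
  rw [Real.rpow_natCast]
  have hεge : 1 / (1024 * (L : ℝ) ^ 4) ≤ ε := by
    rw [hεdef]
    apply one_div_le_one_div_of_le (by positivity)
    have : ((L : ℝ) + 1) ^ 4 ≤ (2 * (L : ℝ)) ^ 4 := pow_le_pow_left₀ (by linarith) (by linarith) 4
    nlinarith [this]
  refine lt_of_lt_of_le ?_ (mul_le_mul_of_nonneg_left
    (pow_le_pow_left₀ (by positivity) hεge m) hc.le)
  rw [div_pow, one_pow, mul_pow, ← pow_mul]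
  rw [mul_one_div, div_lt_div_iff₀ (by positivity) (by positivity)]
  rw [div_lt_div_iff₀ (by positivity) (by positivity)] at hLb
  linarith

end Vale.Agent.P037.Refute
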